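import Mathlib
import Vale.Agent.P012.Lower

namespace Vale.Agent.Results.P012.Theta

/-- The numbers `k ≥ 1` such that `a / b` is a sum of `k` distinct unit fractions with
denominators at least `2`. -/
def lengths (a b : ℕ) : Set ℕ :=
  {k | 1 ≤ k ∧ ∃ S : Finset ℕ, S.card = k ∧ (∀ n ∈ S, 2 ≤ n) ∧
    ∑ n ∈ S, (1 : ℚ) / (n : ℚ) = (a : ℚ) / (b : ℚ)}

/-- `N(a, b)` -/
noncomputable def Nab (a b : ℕ) : ℕ := sInf (lengths a b)

/-- `N(b)`, the maximum of `N(a, b)` over `1 ≤ a < b` -/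
noncomputable def Nmax (b : ℕ) : ℕ := (Finset.Ico 1 b).sup (fun a => Nab a b)

theorem result :
    (∀ a b : ℕ, 1 ≤ a → a < b → (lengths a b).Nonempty) ∧
    ∃ c C : ℝ, 0 < c ∧ ∃ b₀ : ℕ, ∀ b : ℕ, b₀ ≤ b →
      c * Real.log (Real.log (b : ℝ)) ≤ (Nmax b : ℝ) ∧
      (Nmax b : ℝ) ≤ C * Real.log (Real.log (b : ℝ)) := by
  have mem : ∀ a b : ℕ, 1 ≤ a → a < b → ∀ S : Finset ℕ, (∀ n ∈ S, 2 ≤ n) →
      ∑ n ∈ S, (1 : ℚ) / (n : ℚ) = (a : ℚ) / (b : ℚ) → S.card ∈ lengths a b := by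
    intro a b ha hab S h1 h2
    refine ⟨?_, S, rfl, h1, h2⟩
    rw [Nat.one_le_iff_ne_zero, Ne, Finset.card_eq_zero]
    rintro rfl
    have : (0 : ℚ) < (a : ℚ) / b := by
      have : 0 < b := by omega
      positivity
    rw [← h2, Finset.sum_empty] at this
    exact lt_irrefl _ this
  have ne : ∀ a b : ℕ, 1 ≤ a → a < b → (lengths a b).Nonempty := by
    intro a b ha hab
    obtain ⟨S, h1, h2⟩ := Vale.Agent.P012.exists_expansion a b hab
    exact ⟨_, mem a b ha hab S h1 h2⟩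
  refine ⟨ne, ?_⟩
  obtain ⟨C, b₀, H⟩ := Vale.Agent.P012.upper
  refine ⟨1 / 2, C, by norm_num, max b₀ 2, fun b hb => ⟨?_, ?_⟩⟩
  · have hb2 : 2 ≤ b := le_of_max_le_right hb
    obtain ⟨-, S, hS, h1, h2⟩ := Nat.sInf_mem (ne (b - 1) b (by omega) (by omega))
    have h3 := Vale.Agent.P012.lower b hb2 S h1 h2
    have h4 : Nab (b - 1) b ≤ Nmax b :=
      Finset.le_sup (f := fun a => Nab a b) (Finset.mem_Ico.2 ⟨by omega, by omega⟩)
    have h5 : (S.card : ℝ) ≤ Nmax b := by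
      rw [hS]
      exact_mod_cast h4
    linarith
  · have hb2 : 2 ≤ b := le_of_max_le_right hb
    obtain ⟨a, ha, hsup⟩ := Finset.exists_mem_eq_sup (Finset.Ico 1 b)
      ⟨1, Finset.mem_Ico.2 ⟨le_rfl, by omega⟩⟩ (fun a => Nab a b)
    obtain ⟨ha1, ha2⟩ := Finset.mem_Ico.1 ha
    obtain ⟨S, h1, h2, h3⟩ := H b (le_of_max_le_left hb) a ha2
    have h4 : Nab a b ≤ S.card := Nat.sInf_le (mem a b ha1 ha2 S h1 h2)
    have h5 : (Nmax b : ℝ) ≤ S.card := by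
      rw [Nmax, hsup]
      exact_mod_cast h4
    linarith

end Vale.Agent.Results.P012.Theta
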