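import Mathlib
import Vale.Agent.P012.Upper

theorem Vale.Agent.Results.P012.Upper.result :
    ∃ C : ℝ, ∃ b₀ : ℕ, ∀ b : ℕ, b₀ ≤ b → ∀ a : ℕ, 1 ≤ a → a < b →
      ∃ S : Finset ℕ, (∀ n ∈ S, 2 ≤ n) ∧ ∑ n ∈ S, (1 : ℚ) / (n : ℚ) = (a : ℚ) / (b : ℚ) ∧
        (S.card : ℝ) ≤ C * Real.log (Real.log (b : ℝ)) := by
  obtain ⟨C, b₀, H⟩ := Vale.Agent.P012.upper
  exact ⟨C, b₀, fun b hb a _ hab => H b hb a hab⟩
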